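import Vale.Agent.P167.H92.Rec

/-!
The hitting capacity when the target, too, is wired: with `A ∪ T ∪ B` wired, the probability that
no open path (without identification) joins `T` and `A` is the probability that a random set, whose
law depends on `T` and `B` only, misses `A`.
-/

namespace Vale.Agent.P167.H92

open Finset Vale.Agent.P167.H623

set_option linter.unusedSectionVars false

variable {V E : Type*} [Fintype V] [DecidableEq V] [Fintype E] [DecidableEq E]
  (a b : E → V)

open Classical in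
theorem wt_cw3_pow (q : ℝ) (W T B : Finset V) (ω : Finset E) :
    wt (cw3 q 1 W T B) (conf a b ω) =
      if Miss a b T W ω then
        q ^ ((classes (conf a b ω)).filter fun c => Disjoint c (W ∪ T ∪ B)).card
      else 0 := by
  split_ifs with h
  · rw [wt, ← prod_const, prod_filter]
    refine prod_congr rfl fun c hc => ?_
    obtain ⟨x, rfl⟩ := mem_classes.1 hc
    have hu : Disjoint (cls (conf a b ω) x) (W ∪ T ∪ B) ↔
        (Disjoint (cls (conf a b ω) x) W ∧ Disjoint (cls (conf a b ω) x) T) ∧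
          Disjoint (cls (conf a b ω) x) B := by
      rw [disjoint_union_right, disjoint_union_right]
    rw [cw3]
    by_cases h1 : Disjoint (cls (conf a b ω) x) W
    · by_cases h2 : Disjoint (cls (conf a b ω) x) T
      · by_cases h3 : Disjoint (cls (conf a b ω) x) B
        · rw [if_pos h1, if_pos h2, if_pos h3, if_pos (hu.2 ⟨⟨h1, h2⟩, h3⟩)]
        · rw [if_pos h1, if_pos h2, if_neg h3, if_neg fun k => h3 (hu.1 k).2]
      · rw [if_pos h1, if_neg h2, if_neg fun k => h2 (hu.1 k).1.2]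
    · rw [if_neg h1, if_neg fun k => h1 (hu.1 k).1.1, if_pos]
      by_contra h2
      obtain ⟨y, hy, hyW⟩ := not_disjoint_iff.1 h1
      obtain ⟨z, hz, hzT⟩ := not_disjoint_iff.1 h2
      refine h z hzT y hyW ((conn_iff a b ω z y).2 ?_)
      exact Setoid.trans' _ (Setoid.symm' _ (mem_cls.1 hz)) (mem_cls.1 hy)
  · rw [Miss] at h
    push Not at h
    obtain ⟨x, hx, y, hy, hxy⟩ := h
    rw [conn_iff] at hxy
    refine prod_eq_zero (cls_mem _ x) ?_
    rw [cw3, if_neg, if_neg]
    · exact not_disjoint_iff.2 ⟨x, self_mem_cls _ x, hx⟩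
    · exact not_disjoint_iff.2 ⟨y, mem_cls.2 hxy, hy⟩

open Classical in
theorem sum_weight_miss3 {p : E → ℝ} (hp : ∀ e, p e < 1) (q : ℝ) (T B W : Finset V) :
    ∑ ω with Miss a b T W ω, weight a b p q (W ∪ T ∪ B) ω =
      kap p q (W ∪ T ∪ B) * N3 a b (fun e => p e / (1 - p e)) (1 - (1 - q)) 1 T B Wᶜ := by
  rw [N3, mul_sum, powerset_univ, sum_filter]
  refine sum_congr rfl fun ω _ => ?_
  rw [compl_compl, sub_sub_cancel, wt_cw3_pow]
  split_ifs
  · rw [weight_eq a b hp]
  · ring

theorem prob_miss3 {p : E → ℝ} (hp : ∀ e, p e < 1) {q : ℝ} (hq : 0 < q) (T B W : Finset V) :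
    prob a b p q (W ∪ T ∪ B) (Miss a b T W) =
      N3 a b (fun e => p e / (1 - p e)) (1 - (1 - q)) 1 T B Wᶜ /
        XX a b (fun e => p e / (1 - p e)) (1 - q) (Wᶜ \ (T ∪ B)) := by
  classical
  have h1 := sum_weight_miss3 a b hp q T B W
  have h3 : (W ∪ T ∪ B)ᶜ = Wᶜ \ (T ∪ B) := by
    ext x; simp only [mem_compl, mem_union, mem_sdiff]; tauto
  rw [prob, sum_weight a b hp, h3]
  have h2 : ∑ ω with Miss a b T W ω, weight a b p q (W ∪ T ∪ B) ω =
      kap p q (W ∪ T ∪ B) * N3 a b (fun e => p e / (1 - p e)) (1 - (1 - q)) 1 T B Wᶜ := by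
    rw [← h1]
  rw [h2, mul_div_mul_left _ _ (kap_pos hp hq _).ne']

/-- **The hitting capacity with a wired target and a further wired set `B`.** -/
theorem capacity3 {p : E → ℝ} (hp : ∀ e, 0 ≤ p e ∧ p e < 1) {q : ℝ} (hq : 0 < q) (hq1 : q ≤ 1)
    (T B : Finset V) : ∃ π : Finset V → ℝ, (∀ R, 0 ≤ π R) ∧ ∑ R, π R = 1 ∧
      ∀ A : Finset V, prob a b p q (A ∪ T ∪ B) (Miss a b T A) = ∑ R with Disjoint R A, π R := by
  classical
  have hw : ∀ e, 0 ≤ p e / (1 - p e) := fun e => div_nonneg (hp e).1 (by linarith [(hp e).2])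
  obtain ⟨π, h0, h1⟩ := N3_ratio a b (fun e => p e / (1 - p e)) (1 - q) hw (by linarith)
    (by linarith) zero_le_one T B
  have h2 : ∀ A : Finset V, prob a b p q (A ∪ T ∪ B) (Miss a b T A) =
      ∑ R with Disjoint R A, π R := by
    intro A
    rw [prob_miss3 a b (fun e => (hp e).2) hq]
    have := h1 Aᶜ (subset_univ _)
    beta_reduce at this
    rw [this]
    refine sum_congr ?_ fun _ _ => rfl
    ext R
    rw [mem_powerset, mem_filter, subset_compl_iff_disjoint_right]
    simp
  refine ⟨π, h0, ?_, h2⟩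
  have h3 := h2 ∅
  have h4 : ∀ R : Finset V, Disjoint R ∅ := fun R => disjoint_empty_right R
  rw [filter_true_of_mem fun R _ => h4 R] at h3
  rw [← h3, prob]
  have h5 : (univ : Finset (Finset E)).filter (fun ω => Miss a b T ∅ ω) = univ :=
    filter_true_of_mem fun ω _ x _ y hy => absurd hy (notMem_empty y)
  rw [h5, div_self (sum_weight_pos a b hp hq _).ne']

/-- **Comparison**: the probability that no open path joins the wired sets `T` and `A` decreases
with `A`, in presence of any further wired set `B`. -/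
theorem comparison3 {p : E → ℝ} (hp : ∀ e, 0 ≤ p e ∧ p e < 1) {q : ℝ} (hq : 0 < q)
    (hq1 : q ≤ 1) (T B : Finset V) {A A' : Finset V} (h : A ⊆ A') :
    prob a b p q (A' ∪ T ∪ B) (Miss a b T A') ≤ prob a b p q (A ∪ T ∪ B) (Miss a b T A) := by
  obtain ⟨π, h0, -, h2⟩ := capacity3 a b hp hq hq1 T B
  rw [h2, h2]
  refine sum_le_sum_of_subset_of_nonneg ?_ fun R _ _ => h0 R
  intro R hR
  rw [mem_filter] at hR ⊢
  exact ⟨hR.1, hR.2.mono_right h⟩

/-- The partition functions: `Z^{A ∪ U} / Z^A` decreases when `A` grows. -/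
theorem ratio_mono {w : E → ℝ} {s : ℝ} (hw : ∀ e, 0 ≤ w e) (hs0 : 0 ≤ s) (hs : s < 1)
    {S S' U : Finset V} (h : S ⊆ S') (hU : Disjoint S' U) :
    XX a b w s S / XX a b w s (S ∪ U) ≤ XX a b w s S' / XX a b w s (S' ∪ U) := by
  obtain ⟨c, h0, h1⟩ := ratio a b w s hw hs0 hs hU
  have e1 := h1 S h
  have e2 := h1 S' subset_rfl
  beta_reduce at e1 e2
  rw [e1, e2]
  exact sum_le_sum_of_subset_of_nonneg (powerset_mono.2 h) fun R _ _ => h0 R

end Vale.Agent.P167.H92
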