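import Vale.Agent.P167.H623.Model

/-!
Random-cluster measures with `0 < q ≤ 1` and a wired set `A ∪ T ∪ B`: the probability that no open
path (without identification) joins `T` and `A` is totally monotone in `A`.
-/

namespace Vale.Agent.P167.H92

open Finset Vale.Agent.P167.H623

set_option linter.unusedSectionVars false

section key

variable {V : Type*} [Fintype V] [DecidableEq V]

/-- A weight of classes which does not see the points outside of the marked set `M`. -/
structure Marked (M : Finset V) (s : ℝ) (θ : Finset V → ℝ) : Prop where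
  nonneg : ∀ c, ¬ Disjoint c M → 0 ≤ θ c
  neg : ∀ c, Disjoint c M → θ c = -s
  union : ∀ c c', Disjoint c' M → θ (c ∪ c') = θ c

theorem wt_merge' {M : Finset V} {s : ℝ} {θ : Finset V → ℝ} (hθ : Marked M s θ) (P : Setoid V)
    (x y : V) (hxy : ¬ P x y) (hM : Disjoint (cls P y) M) :
    wt θ P = -s * wt θ (P ⊔ join x y) := by
  have hne : cls P y ≠ cls P x := fun h => hxy (cls_eq_iff.1 h.symm)
  have h1 : wt θ P = θ (cls P x) * (θ (cls P y) *
      ∏ c ∈ ((classes P).erase (cls P x)).erase (cls P y), θ c) := by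
    rw [mul_prod_erase _ _ (mem_erase.2 ⟨hne, cls_mem P y⟩), mul_prod_erase _ _ (cls_mem P x)]
    rfl
  have h2 : cls P x ∪ cls P y ∉ ((classes P).erase (cls P x)).erase (cls P y) := by
    intro h
    rw [mem_erase, mem_erase, mem_classes] at h
    obtain ⟨-, -, u, hu⟩ := h
    have hx : P u x := mem_cls.1 (hu ▸ mem_union_left _ (self_mem_cls P x))
    have hy : P u y := mem_cls.1 (hu ▸ mem_union_right _ (self_mem_cls P y))
    exact hxy (P.trans (P.symm hx) hy)
  have h3 : wt θ (P ⊔ join x y) = θ (cls P x ∪ cls P y) *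
      ∏ c ∈ ((classes P).erase (cls P x)).erase (cls P y), θ c := by
    rw [wt, classes_sup_join, prod_insert h2]
  rw [h1, h3, hθ.neg _ hM, hθ.union _ _ hM]
  ring

variable {E : Type*} [DecidableEq E]

/-- **Positivity** (deletion and contraction). -/
theorem pos_key' (a b : E → V) (v : E → ℝ) {M : Finset V} {s : ℝ} {θ : Finset V → ℝ}
    (hθ : Marked M s θ) (hs : 0 ≤ s) (hv : ∀ e, s ≤ v e) (L : Finset E) : ∀ P : Setoid V,
    (∀ x, ∃ y ∈ M, (P ⊔ conf a b L) x y) →
    0 ≤ ∑ B ∈ L.powerset, (∏ e ∈ B, v e) * wt θ (P ⊔ conf a b B) := by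
  induction L using Finset.induction_on with
  | empty =>
    intro P hP
    rw [powerset_empty, sum_singleton, prod_empty, one_mul]
    apply prod_nonneg
    intro c hc
    obtain ⟨x, rfl⟩ := mem_classes.1 hc
    obtain ⟨y, hy, hxy⟩ := hP x
    exact hθ.nonneg _ fun h => disjoint_left.1 h (mem_cls.2 hxy) hy
  | insert e L he ih =>
    intro P hP
    rw [sum_powerset_insert he]
    have hP' : ∀ x, ∃ y ∈ M, (P ⊔ join (a e) (b e) ⊔ conf a b L) x y := by
      intro x
      obtain ⟨y, hy, hxy⟩ := hP x
      refine ⟨y, hy, ?_⟩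
      rw [conf_insert, ← sup_assoc] at hxy
      exact hxy
    have hI := ih (P ⊔ join (a e) (b e)) hP'
    have hsum : ∑ B ∈ L.powerset, (∏ e' ∈ insert e B, v e') *
        wt θ (P ⊔ conf a b (insert e B)) =
        v e * ∑ B ∈ L.powerset, (∏ e' ∈ B, v e') *
          wt θ (P ⊔ join (a e) (b e) ⊔ conf a b B) := by
      rw [mul_sum]
      refine sum_congr rfl fun B hB => ?_
      rw [prod_insert (fun h => he (mem_powerset.1 hB h)), conf_insert, ← sup_assoc, mul_assoc]
    rw [hsum]
    by_cases hA : ∀ x, ∃ y ∈ M, (P ⊔ conf a b L) x y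
    · exact add_nonneg (ih P hA) (mul_nonneg (hs.trans (hv e)) hI)
    · push Not at hA
      obtain ⟨x0, hx0⟩ := hA
      -- the two ends of `e`: one in the class of `x0`
      have key : ∀ x y : V, join x y = join (a e) (b e) → (P ⊔ conf a b L) x0 y →
          ¬ (P ⊔ conf a b L) x y →
          0 ≤ ∑ B ∈ L.powerset, (∏ e' ∈ B, v e') * wt θ (P ⊔ conf a b B) +
            v e * ∑ B ∈ L.powerset, (∏ e' ∈ B, v e') *
              wt θ (P ⊔ join (a e) (b e) ⊔ conf a b B) := by
        intro x y hj h0 hxy
        have : ∑ B ∈ L.powerset, (∏ e' ∈ B, v e') * wt θ (P ⊔ conf a b B) =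
            -s * ∑ B ∈ L.powerset, (∏ e' ∈ B, v e') *
              wt θ (P ⊔ join (a e) (b e) ⊔ conf a b B) := by
          rw [mul_sum]
          refine sum_congr rfl fun B hB => ?_
          have hle : P ⊔ conf a b B ≤ P ⊔ conf a b L :=
            sup_le_sup_left (conf_mono a b (mem_powerset.1 hB)) P
          have hd : Disjoint (cls (P ⊔ conf a b B) y) M := by
            rw [disjoint_left]
            intro z hz hzS
            exact hx0 z hzS (Setoid.trans' _ h0 (hle (mem_cls.1 hz)))
          rw [wt_merge' hθ (P ⊔ conf a b B) x y (fun h => hxy (hle h)) hd, hj]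
          have : P ⊔ conf a b B ⊔ join (a e) (b e) = P ⊔ join (a e) (b e) ⊔ conf a b B := by
            rw [sup_right_comm]
          rw [this]
          ring
        rw [this, ← add_mul]
        exact mul_nonneg (by linarith [hv e]) hI
      obtain ⟨y, hy, hxy⟩ := hP' x0
      rw [sup_right_comm] at hxy
      rcases (sup_join_iff (P ⊔ conf a b L) (a e) (b e) x0 y).1 hxy with h | ⟨h, h'⟩ | ⟨h, h'⟩
      · exact absurd h (hx0 y hy)
      · refine key (b e) (a e) (join_comm _ _) h fun hk => ?_
        exact hx0 y hy (Setoid.trans' _ h (Setoid.trans' _ (Setoid.symm' _ hk) h'))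
      · refine key (a e) (b e) rfl h fun hk => ?_
        exact hx0 y hy (Setoid.trans' _ h (Setoid.trans' _ (Setoid.symm' _ hk) h'))

end key

variable {V E : Type*} [Fintype V] [DecidableEq V] [Fintype E] [DecidableEq E]

/-- The weight of a class: if it misses `W`: `κ` if it meets `T`, else `1` if it meets `B`,
else `q`; if it meets `W`: `0` if it meets `T`, else `1`. -/
noncomputable def cw3 (q κ : ℝ) (W T B c : Finset V) : ℝ :=
  if Disjoint c W then (if Disjoint c T then (if Disjoint c B then q else 1) else κ)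
  else (if Disjoint c T then 1 else 0)

/-- The weight of a class: `1` if it meets `J`, else `κ` if it meets `K`, else `0` if it meets `B`,
else `-s`. -/
noncomputable def theta3 (J K B : Finset V) (κ s : ℝ) (c : Finset V) : ℝ :=
  if Disjoint c J then (if Disjoint c K then (if Disjoint c B then -s else 0) else κ) else 1

theorem marked_theta3 (J K B : Finset V) {κ : ℝ} (hκ : 0 ≤ κ) (s : ℝ) :
    Marked (J ∪ K ∪ B) s (theta3 J K B κ s) where
  nonneg c hc := by
    rw [disjoint_union_right, disjoint_union_right] at hc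
    rw [theta3]
    split_ifs with h1 h2 h3
    · exact absurd ⟨⟨h1, h2⟩, h3⟩ hc
    · exact le_rfl
    · exact hκ
    · exact zero_le_one
  neg c hc := by
    rw [disjoint_union_right, disjoint_union_right] at hc
    rw [theta3, if_pos hc.1.1, if_pos hc.1.2, if_pos hc.2]
  union c c' hc := by
    rw [disjoint_union_right, disjoint_union_right] at hc
    simp only [theta3, disjoint_union_left, hc.1.1, hc.1.2, hc.2, and_true]

theorem theta3_one {J K B : Finset V} {κ s : ℝ} {P : Setoid V} {x : V} (hx : x ∈ J) :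
    theta3 J K B κ s (cls P x) = 1 := by
  rw [theta3, if_neg]
  exact fun h => disjoint_left.1 h (self_mem_cls P x) hx

/-- The partition function. -/
noncomputable def N3 (a b : E → V) (w : E → ℝ) (q κ : ℝ) (T B D : Finset V) : ℝ :=
  ∑ ω ∈ (univ : Finset E).powerset, (∏ e ∈ ω, w e) * wt (cw3 q κ Dᶜ T B) (conf a b ω)

open Classical in
theorem wt_cw3 (P : Setoid V) (s κ : ℝ) (T B D : Finset V) :
    wt (cw3 (1 - s) κ Dᶜ T B) P =
      ∑ A ∈ D.powerset with T ⊆ A ∧ ∀ x y, P x y → (x ∈ A ↔ y ∈ A),
        wt (theta3 Aᶜ T B κ s) P := by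
  have hfg : ∀ c, cw3 (1 - s) κ Dᶜ T B c =
      (if Disjoint c Dᶜ then (if Disjoint c T then (if Disjoint c B then -s else 0) else κ)
        else 0) + (if Disjoint c T then 1 else 0) := by
    intro c
    rw [cw3]
    split_ifs <;> ring
  rw [wt, prod_congr rfl fun c _ => hfg c, prod_add]
  symm
  refine sum_of_injOn (fun A => A.image (cls P)) ?_ ?_ ?_ ?_
  · have key : ∀ A : Finset V, (∀ x y, P x y → (x ∈ A ↔ y ∈ A)) →
        ∀ x, x ∈ A ↔ cls P x ∈ A.image (cls P) := by
      intro A hA x
      constructor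
      · intro hx
        exact mem_image_of_mem _ hx
      · intro hx
        obtain ⟨y, hy, hyx⟩ := mem_image.1 hx
        exact (hA y x (cls_eq_iff.1 hyx)).1 hy
    intro A hA A' hA' h
    rw [mem_coe, mem_filter] at hA hA'
    ext x
    have h' : A.image (cls P) = A'.image (cls P) := h
    rw [key A hA.2.2, key A' hA'.2.2, h']
  · intro A _
    rw [mem_coe, mem_powerset]
    exact image_subset_image (subset_univ _)
  · intro t ht hne
    rw [mem_powerset] at ht
    by_contra h0
    apply hne
    have hf : ∀ c ∈ t, Disjoint c Dᶜ := by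
      intro c hc
      by_contra hcD
      apply h0
      rw [prod_eq_zero hc (if_neg hcD), zero_mul]
    have hg : ∀ c ∈ classes P, c ∉ t → Disjoint c T := by
      intro c hc hct
      by_contra hcT
      apply h0
      rw [prod_eq_zero (mem_sdiff.2 ⟨hc, hct⟩) (if_neg hcT), mul_zero]
    have hcl : ∀ x, x ∈ t.biUnion id ↔ cls P x ∈ t := by
      intro x
      constructor
      · intro hx
        obtain ⟨c, hc, hxc⟩ := mem_biUnion.1 hx
        obtain ⟨y, rfl⟩ := mem_classes.1 (ht hc)
        rwa [← cls_eq_iff.2 (mem_cls.1 hxc)]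
      · intro hx
        exact mem_biUnion.2 ⟨_, hx, self_mem_cls P x⟩
    refine ⟨t.biUnion id, ?_, ?_⟩
    · rw [mem_coe, mem_filter, mem_powerset]
      refine ⟨?_, ?_, ?_⟩
      · intro x hx
        rw [hcl] at hx
        by_contra hxD
        exact disjoint_left.1 (hf _ hx) (self_mem_cls P x) (mem_compl.2 hxD)
      · intro x hx
        rw [hcl]
        by_contra hxt
        exact disjoint_left.1 (hg _ (cls_mem P x) hxt) (self_mem_cls P x) hx
      · intro x y hxy
        rw [hcl, hcl, cls_eq_iff.2 hxy]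
    · ext c
      rw [mem_image]
      constructor
      · rintro ⟨x, hx, rfl⟩
        exact (hcl x).1 hx
      · intro hc
        obtain ⟨x, rfl⟩ := mem_classes.1 (ht hc)
        exact ⟨x, (hcl x).2 hc, rfl⟩
  · intro A hA
    rw [mem_filter, mem_powerset] at hA
    obtain ⟨hAD, hTA, hA⟩ := hA
    have hsub : A.image (cls P) ⊆ classes P := image_subset_image (subset_univ _)
    rw [wt, ← prod_sdiff hsub, mul_comm]
    congr 1
    · refine prod_congr rfl fun c hc => ?_
      obtain ⟨x, hx, rfl⟩ := mem_image.1 hc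
      have h1 : cls P x ⊆ A := fun y hy => (hA x y (mem_cls.1 hy)).1 hx
      have h2 : Disjoint (cls P x) Aᶜ := disjoint_left.2 fun y hy hy' => (mem_compl.1 hy') (h1 hy)
      rw [theta3, if_pos h2, if_pos (h2.mono_right (compl_subset_compl.2 hAD))]
    · refine prod_congr rfl fun c hc => ?_
      rw [mem_sdiff] at hc
      obtain ⟨x, rfl⟩ := mem_classes.1 hc.1
      have hx : x ∉ A := fun h => hc.2 (mem_image_of_mem _ h)
      rw [theta3_one (mem_compl.2 hx), if_pos]
      refine disjoint_left.2 fun y hy hyT => ?_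
      exact hx ((hA x y (mem_cls.1 hy)).2 (hTA hyT))

end Vale.Agent.P167.H92
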