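import Vale.Agent.P167.H92.Mark

/-!
The recursion: summing over the union of the clusters which meet `T` or `B`.
-/

namespace Vale.Agent.P167.H92

open Finset Vale.Agent.P167.H623

set_option linter.unusedSectionVars false

variable {V E : Type*} [Fintype V] [DecidableEq V] [Fintype E] [DecidableEq E] {a b : E → V}

/-- The classes outside of `X` do not count. -/
theorem wt_res3 {X K B : Finset V} {κ s : ℝ} {g : Finset E} (h : Closed a b X g) :
    wt (theta3 Xᶜ K B κ s) (conf a b g) = wt (theta3 Xᶜ K B κ s) (conf a b (res a b X g)) := by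
  rw [wt_split _ h, wt_split _ (closed_res X g),
    prodOn_one (X := Xᶜ) fun x hx => theta3_one hx,
    prodOn_one (X := Xᶜ) fun x hx => theta3_one hx, mul_one, mul_one]
  exact prodOn_congr (fun x hx => cls_res h hx) fun x hx => rfl

theorem wt_two3 {A R T B : Finset V} {κ s : ℝ} {g : Finset E} (hRA : R ⊆ A) (hTR : T ⊆ R)
    (hBR : B ∩ A ⊆ R) (hR : Closed a b R g) :
    wt (theta3 Aᶜ T B κ s) (conf a b g) =
      wt (theta3 Rᶜ T B κ s) (conf a b (res a b R g)) *
        wt (theta (A \ R)ᶜ ∅ 1 s) (conf a b (res a b Rᶜ g)) := by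
  rw [wt_split _ hR]
  congr 1
  · rw [wt_split _ (closed_res R g), prodOn_one (X := Rᶜ) fun x hx => theta3_one hx, mul_one]
    refine prodOn_congr (fun x hx => cls_res hR hx) fun x hx => ?_
    have h1 := cls_subset (closed_res (a := a) (b := b) R g) hx
    have h2 : Disjoint (cls (conf a b (res a b R g)) x) Rᶜ :=
      disjoint_left.2 fun y hy hy' => (mem_compl.1 hy') (h1 hy)
    have h3 : Disjoint (cls (conf a b (res a b R g)) x) Aᶜ :=
      h2.mono_right (compl_subset_compl.2 hRA)
    rw [theta3, theta3, if_pos h2, if_pos h3]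
  · have hc : Closed a b R (res a b Rᶜ g) := by
      have := (closed_res (a := a) (b := b) Rᶜ g).compl
      rwa [compl_compl] at this
    rw [wt_split _ hc, prodOn_one (X := R), one_mul]
    · refine prodOn_congr (fun x hx => cls_res hR.compl hx) fun x hx => ?_
      have h1 := cls_subset (closed_res (a := a) (b := b) Rᶜ g) hx
      have h2 : Disjoint (cls (conf a b (res a b Rᶜ g)) x) R :=
        disjoint_left.2 fun y hy hy' => (mem_compl.1 (h1 hy)) hy'
      have h3 : Disjoint (cls (conf a b (res a b Rᶜ g)) x) (A \ R)ᶜ ↔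
          Disjoint (cls (conf a b (res a b Rᶜ g)) x) Aᶜ := by
        have : (A \ R)ᶜ = Aᶜ ∪ R := by
          ext y; simp [mem_compl, mem_sdiff]; tauto
        rw [this, disjoint_union_right]
        exact and_iff_left h2
      rw [theta3, theta]
      by_cases h4 : Disjoint (cls (conf a b (res a b Rᶜ g)) x) Aᶜ
      · have h5 : Disjoint (cls (conf a b (res a b Rᶜ g)) x) B := by
          rw [disjoint_left]
          intro y hy hyB
          have hyA : y ∈ A := by
            by_contra hyA
            exact disjoint_left.1 h4 hy (mem_compl.2 hyA)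
          exact disjoint_left.1 h2 hy (hBR (mem_inter.2 ⟨hyB, hyA⟩))
        rw [if_pos h4, if_pos (h3.2 h4), if_pos (h2.mono_right hTR), if_pos h5,
          if_pos (disjoint_empty_right _)]
      · rw [if_neg h4, if_neg fun h => h4 (h3.1 h)]
    · intro x hx
      refine theta_one ?_
      rw [mem_compl, mem_sdiff]
      exact fun h => h.2 hx

/-- The signed partition function of `A`. -/
noncomputable def ZT3 (a b : E → V) (w : E → ℝ) (s κ : ℝ) (T B A : Finset V) : ℝ :=
  ∑ ω ∈ (inE a b A).powerset, (∏ e ∈ ω, w e) * wt (theta3 Aᶜ T B κ s) (conf a b ω)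

theorem N3_eq (a b : E → V) (w : E → ℝ) (s κ : ℝ) (T B D : Finset V) :
    N3 a b w (1 - s) κ T B D =
      ∑ A ∈ D.powerset with T ⊆ A, zz a b w Aᶜ * ZT3 a b w s κ T B A := by
  classical
  have h1 : N3 a b w (1 - s) κ T B D = ∑ ω ∈ (univ : Finset E).powerset,
      ∑ A ∈ D.powerset with T ⊆ A, if ω ⊆ inE a b A ∪ inE a b Aᶜ then
        (∏ e ∈ ω, w e) * wt (theta3 Aᶜ T B κ s) (conf a b ω) else 0 := by
    rw [N3]
    refine sum_congr rfl fun ω _ => ?_
    rw [wt_cw3, mul_sum, ← sum_filter, filter_filter]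
    refine sum_congr ?_ fun _ _ => rfl
    ext A
    rw [mem_filter, mem_filter, closed_iff]
  rw [h1, sum_comm]
  refine sum_congr rfl fun A _ => ?_
  rw [← sum_filter]
  have h2 : (univ : Finset E).powerset.filter (fun ω => ω ⊆ inE a b A ∪ inE a b Aᶜ) =
      (inE a b A ∪ inE a b Aᶜ).powerset := by
    ext ω
    rw [mem_filter, mem_powerset, mem_powerset]
    exact and_iff_right (subset_univ _)
  have hd : Disjoint A Aᶜ := disjoint_compl_right
  rw [h2, sum_powerset_union' (disjoint_inE hd), zz, prod_one_add, ZT3, mul_comm, sum_mul_sum]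
  refine sum_congr rfl fun ω₁ h₁ => sum_congr rfl fun ω₂ h₂ => ?_
  rw [mem_powerset] at h₁ h₂
  rw [prod_union ((disjoint_inE hd).mono h₁ h₂), wt_res3 (closed_union hd h₁ h₂),
    res_union_left hd h₁ h₂]
  ring

variable (a b) (w : E → ℝ) (s κ : ℝ)

/-- The term of `g`. -/
noncomputable def term3 (T B A : Finset V) (g : Finset E) : ℝ :=
  (∏ e ∈ g, w e) *
    ∑ B' ∈ g.powerset, (∏ e ∈ B', (1 + w e)) * wt (theta3 Aᶜ T B κ s) (conf a b B')

/-- The full sum. -/
noncomputable def aa3 (T B A : Finset V) : ℝ :=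
  ∑ g ∈ (inE a b A).powerset, term3 a b w s κ T B A g

theorem aa3_eq (T B A : Finset V) :
    aa3 a b w s κ T B A = zz a b w A * ZT3 a b w s κ T B A := by
  rw [aa3, zz, ZT3]
  exact sum_sum_powerset w (inE a b A) _

open Classical in
/-- The sum over the `g` in which all points of `R` are connected to `T ∪ B`. -/
noncomputable def Phi3 (T B R : Finset V) : ℝ :=
  ∑ g ∈ (inE a b R).powerset with ∀ x ∈ R, ∃ t ∈ T ∪ B, conf a b g x t,
    term3 a b w s κ T B R g

theorem Phi3_nonneg (hw : ∀ e, 0 ≤ w e) (hs0 : 0 ≤ s) (hs1 : s ≤ 1) (hκ : 0 ≤ κ)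
    (T B R : Finset V) : 0 ≤ Phi3 a b w s κ T B R := by
  classical
  refine sum_nonneg fun g hg => ?_
  rw [mem_filter] at hg
  refine mul_nonneg (prod_nonneg fun e _ => hw e) ?_
  have := pos_key' a b (fun e => 1 + w e) (marked_theta3 Rᶜ T B hκ s) hs0
    (fun e => by linarith [hw e]) g ⊥
    (fun x => by
      rw [bot_sup_eq]
      by_cases hx : x ∈ R
      · obtain ⟨t, ht, hxt⟩ := hg.2 x hx
        refine ⟨t, ?_, hxt⟩
        rw [mem_union] at ht
        rw [mem_union, mem_union]
        tauto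
      · exact ⟨x, mem_union_left _ (mem_union_left _ (mem_compl.2 hx)), Setoid.refl' _ x⟩)
  simpa only [bot_sup_eq] using this

theorem term3_union {A R T B : Finset V} (hRA : R ⊆ A) (hTR : T ⊆ R) (hBR : B ∩ A ⊆ R)
    {g₁ g₂ : Finset E} (h₁ : g₁ ⊆ inE a b R) (h₂ : g₂ ⊆ inE a b (A \ R)) :
    term3 a b w s κ T B A (g₁ ∪ g₂) =
      term3 a b w s κ T B R g₁ * term a b w s 1 ∅ (A \ R) g₂ := by
  have hd : Disjoint R (A \ R) := disjoint_sdiff
  rw [term3, term3, term, prod_union ((disjoint_inE hd).mono h₁ h₂),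
    sum_powerset_union' ((disjoint_inE hd).mono h₁ h₂), mul_mul_mul_comm, sum_mul_sum]
  congr 1
  refine sum_congr rfl fun B₁ hB₁ => sum_congr rfl fun B₂ hB₂ => ?_
  rw [mem_powerset] at hB₁ hB₂
  rw [prod_union ((disjoint_inE hd).mono (hB₁.trans h₁) (hB₂.trans h₂)),
    wt_two3 hRA hTR hBR (closed_union hd (hB₁.trans h₁) (hB₂.trans h₂)),
    res_union_left hd (hB₁.trans h₁) (hB₂.trans h₂),
    res_union_right hd (hB₁.trans h₁) (hB₂.trans h₂)]
  ring

theorem aa3_rec {T B A : Finset V} (hT : T ⊆ A) : aa3 a b w s κ T B A =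
    ∑ R ∈ A.powerset with T ⊆ R ∧ B ∩ A ⊆ R,
      Phi3 a b w s κ T B R * aa a b w s 1 ∅ (A \ R) := by
  classical
  rw [aa3, ← sum_fiberwise_of_maps_to
    (g := fun g => A.filter fun x => ∃ t ∈ T ∪ B, conf a b g x t)
    (t := A.powerset.filter fun R => T ⊆ R ∧ B ∩ A ⊆ R)]
  · refine sum_congr rfl fun R hR => ?_
    rw [mem_filter, mem_powerset] at hR
    obtain ⟨hRA, hTR, hBR⟩ := hR
    have hd : Disjoint R (A \ R) := disjoint_sdiff
    have hsub : inE a b R ∪ inE a b (A \ R) ⊆ inE a b A := by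
      intro e he
      rw [mem_union, mem_inE, mem_inE, mem_sdiff, mem_sdiff] at he
      rw [mem_inE]
      rcases he with he | he
      · exact ⟨hRA he.1, hRA he.2⟩
      · exact ⟨he.1.1, he.2.1⟩
    have h1 : (inE a b A).powerset.filter
        (fun g => (A.filter fun x => ∃ t ∈ T ∪ B, conf a b g x t) = R) =
        (inE a b R ∪ inE a b (A \ R)).powerset.filter
          (fun g => (A.filter fun x => ∃ t ∈ T ∪ B, conf a b g x t) = R) := by
      ext g
      rw [mem_filter, mem_filter, mem_powerset, mem_powerset]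
      constructor
      · rintro ⟨hg, hgR⟩
        refine ⟨fun e he => ?_, hgR⟩
        have hA := mem_inE.1 (hg he)
        have hab := conf_edge a b he
        rw [mem_union, mem_inE, mem_inE, mem_sdiff, mem_sdiff]
        by_cases ha : a e ∈ R
        · left
          refine ⟨ha, ?_⟩
          rw [← hgR, mem_filter] at ha ⊢
          obtain ⟨t, ht, hat⟩ := ha.2
          exact ⟨hA.2, t, ht, Setoid.trans' _ (Setoid.symm' _ hab) hat⟩
        · right
          refine ⟨⟨hA.1, ha⟩, hA.2, fun hb => ha ?_⟩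
          rw [← hgR, mem_filter] at hb ⊢
          obtain ⟨t, ht, hbt⟩ := hb.2
          exact ⟨hA.1, t, ht, Setoid.trans' _ hab hbt⟩
      · rintro ⟨hg, hgR⟩
        exact ⟨hg.trans hsub, hgR⟩
    rw [h1, sum_filter, sum_powerset_union' (disjoint_inE hd), Phi3, sum_filter, aa,
      sum_mul_sum]
    refine sum_congr rfl fun g₁ h₁ => sum_congr rfl fun g₂ h₂ => ?_
    rw [mem_powerset] at h₁ h₂
    have hc := closed_union hd h₁ h₂
    have h3 : ((A.filter fun x => ∃ t ∈ T ∪ B, conf a b (g₁ ∪ g₂) x t) = R) ↔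
        ∀ x ∈ R, ∃ t ∈ T ∪ B, conf a b g₁ x t := by
      constructor
      · intro h x hx
        have hx' := hx
        rw [← h, mem_filter] at hx
        obtain ⟨t, ht, hxt⟩ := hx.2
        refine ⟨t, ht, ?_⟩
        rwa [conf_res hc hx', res_union_left hd h₁ h₂] at hxt
      · intro h
        ext x
        rw [mem_filter]
        constructor
        · rintro ⟨hxA, t, ht, hxt⟩
          refine (hc.mem_iff hxt).2 ?_
          rcases mem_union.1 ht with ht | ht
          · exact hTR ht
          · refine hBR (mem_inter.2 ⟨ht, ?_⟩)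
            have hcA : Closed a b A (g₁ ∪ g₂) := by
              intro e he
              have := mem_inE.1 (hsub ((union_subset_union h₁ h₂) he))
              exact ⟨fun _ => this.2, fun _ => this.1⟩
            exact (hcA.mem_iff hxt).1 hxA
        · intro hx
          obtain ⟨t, ht, hxt⟩ := h x hx
          exact ⟨hRA hx, t, ht, conf_mono a b subset_union_left hxt⟩
    by_cases h4 : ∀ x ∈ R, ∃ t ∈ T ∪ B, conf a b g₁ x t
    · rw [if_pos (h3.2 h4), if_pos h4, term3_union a b w s κ hRA hTR hBR h₁ h₂]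
    · rw [if_neg (fun h => h4 (h3.1 h)), if_neg h4, zero_mul]
  · intro g _
    rw [mem_filter, mem_powerset]
    refine ⟨filter_subset _ _, fun t ht => mem_filter.2 ⟨hT ht, t, mem_union_left _ ht,
      Setoid.refl' _ t⟩, fun t ht => mem_filter.2 ⟨(mem_inter.1 ht).2, t,
      mem_union_right _ (mem_inter.1 ht).1, Setoid.refl' _ t⟩⟩

theorem N3_aa (hw : ∀ e, 0 ≤ w e) (T B D : Finset V) : N3 a b w (1 - s) κ T B D =
    ∑ A ∈ D.powerset with T ⊆ A, zz a b w univ * hh a b w A * aa3 a b w s κ T B A := by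
  rw [N3_eq]
  refine sum_congr rfl fun A _ => ?_
  rw [zz_compl a b w hw, aa3_eq]
  ring

theorem N3_rec (hw : ∀ e, 0 ≤ w e) (T B D : Finset V) : N3 a b w (1 - s) κ T B D =
    ∑ R ∈ D.powerset with T ⊆ R,
      hh a b w R * Phi3 a b w s κ T B R * XX a b w s (D \ (R ∪ B)) := by
  rw [N3_aa a b w s κ hw]
  have h1 : ∀ A ∈ D.powerset.filter (fun A => T ⊆ A),
      zz a b w univ * hh a b w A * aa3 a b w s κ T B A =
      ∑ R ∈ A.powerset with T ⊆ R ∧ B ∩ A ⊆ R, zz a b w univ * hh a b w A *
        (Phi3 a b w s κ T B R * aa a b w s 1 ∅ (A \ R)) := by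
    intro A hA
    rw [mem_filter] at hA
    rw [aa3_rec a b w s κ hA.2, mul_sum]
  rw [sum_congr rfl h1]
  rw [sum_comm' (t' := D.powerset.filter fun R => T ⊆ R)
    (s' := fun R => (D.powerset.filter fun A => R ⊆ A).filter fun A => B ∩ A ⊆ R)]
  · refine sum_congr rfl fun R hR => ?_
    rw [mem_filter, mem_powerset] at hR
    rw [sum_filter, sum_sup_powerset hR.1, XX, NN_aa a b w s 1 hw, mul_sum]
    have h2 : (D \ (R ∪ B)).powerset.filter (fun A => ∅ ⊆ A) = (D \ (R ∪ B)).powerset :=
      filter_true_of_mem fun A _ => empty_subset A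
    rw [h2, ← sum_filter]
    have h5 : (D \ R).powerset.filter (fun A => B ∩ (R ∪ A) ⊆ R) =
        (D \ (R ∪ B)).powerset := by
      ext A
      rw [mem_filter, mem_powerset, mem_powerset]
      constructor
      · rintro ⟨h, h'⟩ x hx
        have hxR := mem_sdiff.1 (h hx)
        rw [mem_sdiff, mem_union]
        refine ⟨hxR.1, fun k => ?_⟩
        rcases k with k | k
        · exact hxR.2 k
        · exact hxR.2 (h' (mem_inter.2 ⟨k, mem_union_right _ hx⟩))
      · intro h
        refine ⟨fun x hx => ?_, fun x hx => ?_⟩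
        · have := mem_sdiff.1 (h hx)
          rw [mem_union] at this
          exact mem_sdiff.2 ⟨this.1, fun k => this.2 (Or.inl k)⟩
        · rw [mem_inter, mem_union] at hx
          rcases hx.2 with k | k
          · exact k
          · have := mem_sdiff.1 (h k)
            rw [mem_union] at this
            exact absurd (Or.inr hx.1) this.2
    rw [h5]
    refine sum_congr rfl fun A hA => ?_
    rw [mem_powerset] at hA
    have hd : Disjoint R A := disjoint_left.2 fun x hx hx' =>
      (mem_sdiff.1 (hA hx')).2 (mem_union_left _ hx)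
    have h3 : (R ∪ A) \ R = A := by
      rw [union_sdiff_left, sdiff_eq_self_of_disjoint hd.symm]
    rw [h3, hh_union a b w hd]
    ring
  · intro A R
    simp only [mem_filter, mem_powerset]
    constructor
    · rintro ⟨⟨h1, h2⟩, h3, h4, h5⟩
      exact ⟨⟨⟨h1, h3⟩, h5⟩, h3.trans h1, h4⟩
    · rintro ⟨⟨⟨h1, h2⟩, h5⟩, h3, h4⟩
      exact ⟨⟨h1, h4.trans h2⟩, h2, h4, h5⟩

/-! ### Total monotonicity -/

theorem tm_off {S B : Finset V} {f : Finset V → ℝ} (h : TM (S \ B) f) :
    TM S fun D => f (D \ B) := by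
  obtain ⟨c, h0, h1⟩ := h
  refine ⟨fun A => if Disjoint A B then c A else 0, fun A => ?_, fun D hD => ?_⟩
  · beta_reduce
    split_ifs
    · exact h0 _
    · exact le_rfl
  · beta_reduce
    rw [h1 _ (sdiff_subset_sdiff hD subset_rfl), ← sum_filter]
    refine sum_congr ?_ fun _ _ => rfl
    ext A
    rw [mem_filter, mem_powerset, mem_powerset, subset_sdiff]

/-- **Total monotonicity** of the avoidance probabilities. -/
theorem N3_ratio (hw : ∀ e, 0 ≤ w e) (hs0 : 0 ≤ s) (hs : s < 1) {κ : ℝ} (hκ : 0 ≤ κ)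
    (T B : Finset V) :
    TM univ fun D => N3 a b w (1 - s) κ T B D / XX a b w s (D \ (T ∪ B)) := by
  have h1 : TM univ fun D => ∑ R ∈ (univ : Finset V).powerset with T ⊆ R,
      (hh a b w R * Phi3 a b w s κ T B R) *
        (if R ⊆ D then XX a b w s ((D \ R) \ B) /
          XX a b w s (((D \ R) \ B) ∪ (R \ (T ∪ B))) else 0) := by
    refine TM.sum _ fun R _ => TM.smul ?_ ?_
    · exact mul_nonneg (hh_nonneg a b w hw _) (Phi3_nonneg a b w s κ hw hs0 hs.le hκ _ _ _)
    · refine TM.shift (S := univ) (g := fun D => XX a b w s (D \ B) /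
        XX a b w s ((D \ B) ∪ (R \ (T ∪ B)))) (tm_off (f := fun D => XX a b w s D /
        XX a b w s (D ∪ (R \ (T ∪ B)))) ?_)
      refine ratio a b w s hw hs0 hs ?_
      rw [disjoint_left]
      intro x hx hx'
      exact (mem_sdiff.1 (mem_sdiff.1 hx).1).2 (mem_sdiff.1 hx').1
  refine h1.congr fun D _ => ?_
  rw [N3_rec a b w s κ hw, sum_div]
  symm
  have hsub : (D.powerset.filter fun R => T ⊆ R) ⊆
      (univ : Finset V).powerset.filter fun R => T ⊆ R :=
    filter_subset_filter _ (powerset_mono.2 (subset_univ D))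
  rw [← sum_subset hsub]
  · refine sum_congr rfl fun R hR => ?_
    rw [mem_filter, mem_powerset] at hR
    have h2 : (D \ R) \ B = D \ (R ∪ B) := by
      rw [sdiff_sdiff_left]; rfl
    have h3 : D \ (R ∪ B) ∪ R \ (T ∪ B) = D \ (T ∪ B) := by
      ext x
      simp only [mem_union, mem_sdiff, not_or]
      have := @hR.1 x
      have := @hR.2 x
      tauto
    rw [if_pos hR.1, h2, h3]
    ring
  · intro R hR hR'
    rw [mem_filter] at hR hR'
    rw [if_neg, mul_zero]
    exact fun h => hR' ⟨mem_powerset.2 h, hR.2⟩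

end Vale.Agent.P167.H92
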